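import Crest.Agent.N250.G.Ev2
import Crest.Agent.N250.Gc.Alg

/-!
# Row 250, parametrised surfaces (helper48), part 2: the image as an abstract hypersurface

`S.par X si` is the delta-calculus of the image of `X`, pulled back to `S`; `si = 1 / |N|`.
-/

set_option autoImplicit false
set_option linter.unusedSectionVars false

noncomputable section

namespace Crest.Agent.N250

open Crest.Agent.N222 Gc

namespace Mov

variable {R : Type} [CommRing R] (S : Mov R (Fin 3)) (X : Fin 3 → R) (si : R)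

/-- first derivatives -/
def Jm (a c : Fin 3) : R := S.D a (X c)

/-- second derivatives -/
def Km (a b c : Fin 3) : R := S.D a (S.D b (X c))

/-- the normal of the image, of length the area density -/
def NX : Fin 3 → R := Nv S.n (S.Jm X)

/-- the dual frame times `GX` -/
def WX : Fin 3 → Fin 3 → R := Wv (S.Jm X)

/-- square of the area density -/
def GX : R := G2 S.n (S.Jm X)

/-- `H |N|³` -/
def HX : R := HP S.n (S.Jm X) (S.Km X)

/-- `A |N|⁵` -/
def AX : Fin 3 → Fin 3 → R := AP S.n (S.Jm X) (S.Km X)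

/-- `(2 H - ⟨X, n⟩) |N|³` -/
def ELX : R := EL S.n X (S.Jm X) (S.Km X)

/-- tangential derivative of the image -/
def DX (b : Fin 3) (f : R) : R := si * si * ∑ a, S.WX X a b * S.D a f

/-- the image -/
def par : Mov R (Fin 3) where
  x := X
  D := S.DX X si
  T f := S.T f - ∑ b, S.T (X b) * S.DX X si b f
  n c := si * S.NX X c
  V := si * dot (S.NX X) fun c => S.T (X c)

/-- the Hessian of the image in the frame `J` -/
def QX (f : R) (a e : Fin 3) : R := S.D a (S.D e f) - ∑ d, S.Km X a e d * S.DX X si d f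

section Hom

variable {S} {R' : Type} [CommRing R'] {S' : Mov R' (Fin 3)} {φ : R →+* R'} (H : S.Hom S' φ)
include H

theorem Hom.Jm (a c : Fin 3) : φ (S.Jm X a c) = S'.Jm (fun c => φ (X c)) a c := H.D _ _

theorem Hom.Km (a b c : Fin 3) : φ (S.Km X a b c) = S'.Km (fun c => φ (X c)) a b c := by
  simp only [Mov.Km, H.D]

theorem Hom.n' : (fun a => φ (S.n a)) = S'.n := funext H.n

theorem Hom.NX (c : Fin 3) : φ (S.NX X c) = S'.NX (fun c => φ (X c)) c := by
  simp only [Mov.NX, map_Nv, H.n', H.Jm]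

theorem Hom.WX (a c : Fin 3) : φ (S.WX X a c) = S'.WX (fun c => φ (X c)) a c := by
  simp only [Mov.WX, map_Wv, H.Jm]

theorem Hom.GX : φ (S.GX X) = S'.GX fun c => φ (X c) := by
  simp only [Mov.GX, map_G2, H.n', H.Jm]

theorem Hom.HX : φ (S.HX X) = S'.HX fun c => φ (X c) := by
  simp only [Mov.HX, map_HP, H.n', H.Jm, H.Km]

theorem Hom.AX (a b : Fin 3) : φ (S.AX X a b) = S'.AX (fun c => φ (X c)) a b := by
  simp only [Mov.AX, map_AP, H.n', H.Jm, H.Km]

theorem Hom.ELX : φ (S.ELX X) = S'.ELX fun c => φ (X c) := by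
  simp only [Mov.ELX, map_EL, H.n', H.Jm, H.Km]

theorem Hom.DX (b : Fin 3) (f : R) :
    φ (S.DX X si b f) = S'.DX (fun c => φ (X c)) (φ si) b (φ f) := by
  simp only [Mov.DX, map_mul, map_sum, H.WX, H.D]

theorem Hom.par : (S.par X si).Hom (S'.par (fun c => φ (X c)) (φ si)) φ where
  x _ := rfl
  D := H.DX X si
  T f := by simp only [Mov.par, map_sub, map_sum, map_mul, H.T, H.DX]
  n a := by simp only [Mov.par, map_mul, H.NX]
  V := by simp only [Mov.par, map_mul, map_dot, H.NX, H.T]

end Hom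

variable [Algebra ℝ R] {S} {si}

theorem two_cancel' {x y : R} (h : 2 * x = 2 * y) : x = y :=
  sub_eq_zero.1 (Pre.IsDS.two_cancel (by linear_combination h))

namespace IsHyp

variable (H : S.IsHyp)
include H

theorem fr : Fr S.n (S.Jm X) := ⟨H.nn, fun _ => H.n_D _⟩

theorem n_K (e c : Fin 3) : ∑ a, S.n a * S.Km X a e c = 0 := H.n_D _

theorem W_J (a b : Fin 3) : dot (S.WX X a) (S.Jm X b) = S.GX X * S.P a b := by
  rw [H.Pn]; exact (H.fr X).W_J a b

theorem N_J (b : Fin 3) : dot (S.NX X) (S.Jm X b) = 0 := (H.fr X).N_J b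

theorem N_W (b : Fin 3) : dot (S.NX X) (S.WX X b) = 0 := (H.fr X).N_W b

theorem n_W (c : Fin 3) : ∑ a, S.n a * S.WX X a c = 0 := (H.fr X).n_W c

theorem J_W (b c : Fin 3) : ∑ a, S.WX X a b * S.Jm X a c =
    (if b = c then S.GX X else 0) - S.NX X b * S.NX X c := (H.fr X).J_W b c

theorem dec (v : Fin 3 → R) (c : Fin 3) : S.GX X * v c =
    ∑ a, S.WX X a c * dot (S.Jm X a) v + S.NX X c * dot (S.NX X) v := (H.fr X).dec v c

theorem dec' (v : Fin 3 → R) (c : Fin 3) : S.GX X * v c =
    ∑ a, S.Jm X a c * dot (S.WX X a) v + S.NX X c * dot (S.NX X) v := (H.fr X).dec' v c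

theorem K_comm (a e c : Fin 3) : S.Km X a e c = S.Km X e a c
    + S.n a * ∑ d, S.B e d * S.Jm X d c - S.n e * ∑ d, S.B a d * S.Jm X d c := H.DD_comm _ _ _

theorem D_dot (a : Fin 3) (u v : Fin 3 → R) :
    S.D a (dot u v) = dot u (fun c => S.D a (v c)) + dot (fun c => S.D a (u c)) v := by
  simp only [dot, H.toIsDS.D_sum, H.mul, Finset.sum_add_distrib]

theorem D_gm (c a b : Fin 3) : S.D c (gm (S.Jm X) a b) =
    dot (S.Jm X a) (S.Km X c b) + dot (S.Km X c a) (S.Jm X b) := H.D_dot _ _ _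

/-- derivative of the squared area density -/
theorem D_GX (c : Fin 3) : S.D c (S.GX X) = 2 * ∑ a, dot (S.WX X a) (S.Km X c a) := by
  apply two_cancel'
  have h1 := congrArg (S.D c) (H.fr X).two_G2
  rw [H.mul, H.toIsDS.D_two, zero_mul, add_zero] at h1
  rw [GX, h1]
  simp only [H.toIsDS.D_sub, H.mul, H.toIsDS.D_sum, H.D_gm, WX, dot_W]
  simp [adj, Fin.sum_univ_three, gm_symm (S.Jm X) 1 0, gm_symm (S.Jm X) 2 0, gm_symm (S.Jm X) 2 1,
    dot_comm (S.Km X _ _)]
  ring

theorem N_DX (f : R) : ∑ b, S.NX X b * S.DX X si b f = 0 := by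
  have : ∑ b, S.NX X b * S.DX X si b f = si * si * ∑ a, dot (S.NX X) (S.WX X a) * S.D a f := by
    simp only [DX, dot, Fin.sum_univ_three]; ring
  rw [this]
  simp only [NX, WX, (H.fr X).N_W, zero_mul, Finset.sum_const_zero, mul_zero]

variable {X} (hs : si * si * S.GX X = 1)
include hs

theorem D_si (c : Fin 3) : S.D c si = -(si ^ 3 * ∑ a, dot (S.WX X a) (S.Km X c a)) := by
  apply two_cancel'
  have h1 := congrArg (S.D c) hs
  rw [H.mul, H.mul, H.D_GX, H.toIsDS.D_one] at h1
  linear_combination si * h1 - 2 * S.D c si * hs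

/-- chain rule -/
theorem chain (a : Fin 3) (f : R) : ∑ b, S.Jm X a b * S.DX X si b f = S.D a f := by
  have : ∑ b, S.Jm X a b * S.DX X si b f =
      si * si * ∑ e, dot (S.WX X e) (S.Jm X a) * S.D e f := by
    simp only [DX, dot, Fin.sum_univ_three]; ring
  rw [this, ← H.toIsDS.PD a f]
  simp only [H.W_J, Finset.mul_sum]
  exact Finset.sum_congr rfl fun e _ => by
    rw [H.symm e a]; linear_combination (S.P a e * S.D e f) * hs

theorem par_P (b c : Fin 3) : (S.par X si).P b c =
    (if b = c then 1 else 0) - (S.par X si).n b * (S.par X si).n c := by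
  change si * si * ∑ a, Wv (S.Jm X) a b * S.Jm X a c = _ - si * Nv _ _ b * (si * Nv _ _ c)
  rw [(H.fr X).J_W, ← GX]
  split_ifs
  · linear_combination hs
  · ring

theorem par_nn : ∑ a, (S.par X si).n a * (S.par X si).n a = 1 := by
  rw [← hs]
  simp only [par, GX, G2, NX, dot, Fin.sum_univ_three]; ring

theorem QX_eq (f : R) (a e : Fin 3) :
    S.QX X si f a e = ∑ b, S.Jm X e b * S.D a (S.DX X si b f) := by
  rw [QX]
  conv_lhs => rw [← H.chain hs e f]
  simp only [H.toIsDS.D_sum, H.mul, Finset.sum_add_distrib]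
  exact add_sub_cancel_right _ _

theorem QX_symm (f : R) (a e : Fin 3) : S.QX X si f a e = S.QX X si f e a := by
  have h1 : ∀ b, ∑ d, (∑ c, S.B b c * S.Jm X c d) * S.DX X si d f = ∑ c, S.B b c * S.D c f :=
    fun b => by
      simp only [← H.chain hs _ f, Finset.sum_mul, Finset.mul_sum, mul_assoc]
      exact Finset.sum_comm
  rw [QX, QX, H.DD_comm f a e, ← h1, ← h1]
  simp only [H.K_comm X a e, Fin.sum_univ_three]
  ring

theorem par_hess (f : R) (b c : Fin 3) : (S.par X si).hess f b c =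
    si ^ 4 * ∑ a, ∑ e, S.WX X a b * S.WX X e c * S.QX X si f a e := by
  simp only [H.QX_eq hs]
  change ∑ d, (si * si * ∑ e, S.WX X e c * S.Jm X e d) *
    (si * si * ∑ a, S.WX X a b * S.D a (S.DX X si d f)) = _
  simp only [Fin.sum_univ_three]
  ring

/-- the image is a hypersurface -/
theorem par_isHyp : (S.par X si).IsHyp where
  add a f g := by
    change S.DX X si a _ = S.DX X si a _ + S.DX X si a _
    simp only [DX, H.add, Fin.sum_univ_three]; ring
  mul a f g := by
    change S.DX X si a _ = f * S.DX X si a _ + S.DX X si a _ * g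
    simp only [DX, H.mul, Fin.sum_univ_three]; ring
  const a r := by
    change S.DX X si a _ = 0
    simp only [DX, H.const, mul_zero, Finset.sum_const_zero]
  symm a b := by simp only [H.par_P hs, eq_comm, mul_comm]
  tan f a := by
    have h1 := H.N_DX X (si := si) f
    simp only [H.par_P hs, sub_mul, Finset.sum_sub_distrib, ite_mul, one_mul, zero_mul,
      Finset.sum_ite_eq, Finset.mem_univ, if_true]
    simp only [par, Fin.sum_univ_three] at h1 ⊢
    linear_combination (-(si * si * S.NX X a)) * h1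
  hess f a b := by
    rw [H.par_hess hs, H.par_hess hs, Finset.sum_comm]
    congr 1
    exact Finset.sum_congr rfl fun e _ => Finset.sum_congr rfl fun c _ => by
      rw [H.QX_symm hs f c e]; ring
  nn := H.par_nn hs
  Pn := H.par_P hs

/-- second fundamental form of the image -/
theorem par_B (b c : Fin 3) : (S.par X si).B b c = si ^ 5 * S.AX X b c := by
  have h1 : ∀ a e, ∑ d, S.QX X si (X d) a e * (S.par X si).n d =
      si * dot (S.Km X a e) (S.NX X) := fun a e => by
    have h2 : ∀ f, ∑ d, S.DX X si f (X d) * (S.par X si).n d = 0 := (H.par_isHyp hs).P_n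
    have h3 : ∑ d, S.QX X si (X d) a e * (S.par X si).n d = si * dot (S.Km X a e) (S.NX X)
        - ∑ f, S.Km X a e f * ∑ d, S.DX X si f (X d) * (S.par X si).n d := by
      simp only [QX, par, dot, Km, Fin.sum_univ_three]; ring
    simp only [h3, h2, mul_zero, Finset.sum_const_zero, sub_zero]
  rw [(H.par_isHyp hs).B_eq]
  have h4 : ∑ d, (S.par X si).II b c d * (S.par X si).n d = si ^ 4 * ∑ a, ∑ e,
      S.WX X a b * S.WX X e c * ∑ d, S.QX X si (X d) a e * (S.par X si).n d := by
    simp only [Pre.II, H.par_hess hs]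
    change ∑ d, (si ^ 4 * ∑ a, ∑ e, S.WX X a b * S.WX X e c * S.QX X si (X d) a e) * _ = _
    simp only [Fin.sum_univ_three]; ring
  rw [h4]
  simp only [h1, AX, AP, WX, NX, Fin.sum_univ_three]
  ring

/-- mean curvature of the image -/
theorem par_h : (S.par X si).h = si ^ 3 * S.HX X := by
  have h1 : (S.par X si).h = -(si ^ 5 * ∑ a, ∑ e,
      dot (S.WX X a) (S.WX X e) * dot (S.Km X a e) (S.NX X)) := by
    simp only [Mov.h, H.par_B hs, AX, AP, WX, NX, dot, Fin.sum_univ_three]; ring
  have h2 : ∀ e, ∑ a, S.n a * dot (S.Km X a e) (S.NX X) = 0 := fun e => by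
    have : ∑ a, S.n a * dot (S.Km X a e) (S.NX X) = ∑ c, (∑ a, S.n a * S.Km X a e c) * S.NX X c := by
      simp only [dot, Fin.sum_univ_three]; ring
    simp only [this, H.n_K, zero_mul, Finset.sum_const_zero]
  have h3 := h2 0
  have h4 := h2 1
  have h5 := h2 2
  have h6 : S.HX X = -∑ a, ∑ b, adj (S.Jm X) a b * dot (S.Km X a b) (S.NX X) := rfl
  rw [h1]
  simp only [WX, (H.fr X).W_W]
  simp only [Fin.sum_univ_three, ← GX.eq_1] at h3 h4 h5 h6 ⊢
  set t := gm (S.Jm X) 0 0 + gm (S.Jm X) 1 1 + gm (S.Jm X) 2 2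
  linear_combination (si ^ 5 * S.GX X * t) * (S.n 0 * h3 + S.n 1 * h4 + S.n 2 * h5)
    + si ^ 3 * S.HX X * hs - si ^ 5 * S.GX X * h6



/-- derivative of the area density `s = si * GX` -/
theorem D_s (c : Fin 3) : S.D c (si * S.GX X) = si * ∑ a, dot (S.WX X a) (S.Km X c a) := by
  rw [H.mul, H.D_GX, H.D_si hs]
  linear_combination (-(si * ∑ a, dot (S.WX X a) (S.Km X c a))) * hs

/-- the Piola identity -/
theorem piola (c : Fin 3) : ∑ a, S.D a (si * S.WX X a c) = -(si ^ 3 * S.HX X * S.NX X c) := by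
  set v : Fin 3 → R := fun c => ∑ a, S.D a (si * S.WX X a c) + si ^ 3 * S.HX X * S.NX X c with hv
  have h1 : dot (S.NX X) v = 0 := by
    have e : ∀ a, dot (S.NX X) (fun c => S.D a (si * S.WX X a c)) =
        si * ∑ b, adj (S.Jm X) a b * dot (S.Km X a b) (S.NX X)
          + ∑ b, S.D a (si * adj (S.Jm X) a b) * dot (S.NX X) (S.Jm X b) := fun a => by
      simp only [WX, Wv, Finset.mul_sum, ← mul_assoc, H.toIsDS.D_sum, H.mul a (si * _)]
      simp only [dot, Km, Jm, Fin.sum_univ_three]; ring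
    have e2 : dot (S.NX X) v = ∑ a, dot (S.NX X) (fun c => S.D a (si * S.WX X a c))
        + si ^ 3 * S.HX X * S.GX X := by
      simp only [hv, GX, G2, NX, dot, Fin.sum_univ_three]; ring
    have h6 : S.HX X = -∑ a, ∑ b, adj (S.Jm X) a b * dot (S.Km X a b) (S.NX X) := rfl
    rw [e2]
    simp only [e, H.N_J, mul_zero, Finset.sum_const_zero, add_zero, ← Finset.mul_sum]
    linear_combination si * h6 + si * S.HX X * hs
  have h2 : ∀ b, dot (S.Jm X b) v = 0 := fun b => by
    have e : ∀ a, dot (S.Jm X b) (fun c => S.D a (si * S.WX X a c)) =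
        S.D a (si * S.GX X * S.P a b) - si * dot (S.WX X a) (S.Km X a b) := fun a => by
      have e1 : si * S.GX X * S.P a b = dot (fun c => si * S.WX X a c) (S.Jm X b) := by
        rw [mul_assoc, ← H.W_J]; simp only [dot, Finset.mul_sum, mul_assoc]
      rw [e1, H.D_dot, dot_comm (S.Jm X b)]
      simp only [dot, Km, Jm, Fin.sum_univ_three]; ring
    have e2 : dot (S.Jm X b) v = ∑ a, dot (S.Jm X b) (fun c => S.D a (si * S.WX X a c))
        + si ^ 3 * S.HX X * dot (S.NX X) (S.Jm X b) := by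
      simp only [hv, dot, Fin.sum_univ_three]; ring
    have e3 : ∑ a, S.D a (si * S.GX X * S.P a b) =
        -(si * S.GX X * (S.h * S.n b)) + S.D b (si * S.GX X) := by
      simp only [H.mul _ (si * S.GX X), Finset.sum_add_distrib, ← Finset.mul_sum]
      rw [← H.toIsDS.H_eq, H.H_eq, H.toIsDS.tan_left (H.tan _)]; ring
    have e4 : ∑ a, dot (S.WX X a) (S.Km X a b) =
        ∑ a, dot (S.WX X a) (S.Km X b a) - S.n b * (S.GX X * S.h) := by
      have e5 : ∑ a, dot (S.WX X a) (S.Km X a b) = ∑ a, dot (S.WX X a) (S.Km X b a)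
          + ∑ c, (∑ a, S.n a * S.WX X a c) * ∑ d, S.B b d * S.Jm X d c
          - S.n b * ∑ a, ∑ d, S.B a d * dot (S.WX X a) (S.Jm X d) := by
        simp only [dot, fun a c => H.K_comm X a b c, Fin.sum_univ_three]
        ring
      have e6 : ∀ a, ∑ d, S.B a d * (S.GX X * S.P a d) = S.GX X * S.B a a := fun a => by
        rw [← H.tan_B a a, Finset.mul_sum]
        exact Finset.sum_congr rfl fun d _ => by ring
      simp only [e5, H.n_W, H.W_J, e6, zero_mul, Finset.sum_const_zero, add_zero, ← Finset.mul_sum]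
      rfl
    rw [e2]
    simp only [e, Finset.sum_sub_distrib, ← Finset.mul_sum, e3, e4, H.D_s hs, H.N_J]
    ring
  have h3 := H.dec X v c
  simp only [h2, h1, mul_zero, Finset.sum_const_zero, add_zero] at h3
  have h4 : v c = 0 := by linear_combination si * si * h3 - v c * hs
  linear_combination h4

/-- the divergence of a pulled back field -/
theorem dv_W (Y : Fin 3 → R) : ∑ a, S.D a (si * dot (S.WX X a) Y) =
    si * ∑ a, dot (S.WX X a) (fun c => S.D a (Y c)) - si ^ 3 * S.HX X * dot (S.NX X) Y := by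
  have e : ∀ a, si * dot (S.WX X a) Y = dot (fun c => si * S.WX X a c) Y := fun a => by
    simp only [dot, Finset.mul_sum, mul_assoc]
  have p0 := H.piola hs 0
  have p1 := H.piola hs 1
  have p2 := H.piola hs 2
  simp only [e, H.D_dot]
  simp only [dot, Fin.sum_univ_three] at p0 p1 p2 ⊢
  linear_combination Y 0 * p0 + Y 1 * p1 + Y 2 * p2


/-- FIRST VARIATION of the Gaussian area `e |N|`, `e = exp (-⟨X, X⟩ / 4)`, in the direction `Y`:
the left side is twice the derivative of the Lagrangian -/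
theorem first_var {e : R} (he : ∀ a, 2 * S.D a e = -(e * dot (S.Jm X a) X)) (Y : Fin 3 → R) :
    2 * (e * si * ∑ a, dot (S.WX X a) fun c => S.D a (Y c)) - e * (si * S.GX X) * dot X Y =
      2 * ∑ a, S.D a (e * (si * dot (S.WX X a) Y)) + e * si ^ 3 * S.ELX X * dot (S.NX X) Y := by
  have h1 := H.dv_W hs Y
  have h2 : S.GX X * dot X Y = ∑ a, dot (S.Jm X a) X * dot (S.WX X a) Y
      + dot X (S.NX X) * dot (S.NX X) Y := by
    have d0 := H.dec' X Y 0
    have d1 := H.dec' X Y 1
    have d2 := H.dec' X Y 2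
    rw [dot.eq_1 X Y, dot.eq_1 X]
    simp only [dot.eq_1 (S.Jm X _) X, Fin.sum_univ_three] at d0 d1 d2 ⊢
    linear_combination X 0 * d0 + X 1 * d1 + X 2 * d2
  have h3 : S.ELX X = 2 * S.HX X - dot X (S.NX X) * S.GX X := rfl
  simp only [H.mul _ e]
  simp only [Fin.sum_univ_three] at h1 h2 ⊢
  linear_combination (-2 * e) * h1 - (e * si) * h2 - e * si ^ 3 * dot (S.NX X) Y * h3
    - si * dot (S.WX X 0) Y * he 0 - si * dot (S.WX X 1) Y * he 1 - si * dot (S.WX X 2) Y * he 2
    + e * si * dot X (S.NX X) * dot (S.NX X) Y * hs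

end IsHyp

end Mov

end Crest.Agent.N250

end
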