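import Crest.Agent.N250.FV.Main
import Crest.Agent.N250.Gc.Img

/-!
# Row 250, parametrised surfaces (helper48), part 4: the area formula, static images
-/

set_option autoImplicit false
open MeasureTheory Set Filter Topology Function
open scoped ContDiff InnerProductSpace ENNReal Pointwise
open Crest.GeometryTopology.MCF

noncomputable section

namespace Crest.Agent.N250

open Gc FV

theorem Gc.gram_comb {n u v a b : Fin 3 → ℝ} {J : Fin 3 → Fin 3 → ℝ} (h : Fr n J)
    (hu : dot n u = 0) (hv : dot n v = 0) (ha : ∀ c, a c = ∑ e, u e * J e c)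
    (hb : ∀ c, b c = ∑ e, v e * J e c) :
    dot a a * dot b b - dot a b * dot b a = G2 n J * (dot u u * dot v v - dot u v * dot v u) := by
  have e1 : ∀ c, cr a b c = dot n (cr u v) * Nv n J c := fun c => by
    have : cr a b c = ∑ e, cr u v e * cof J e c := by
      simp only [cr, cof, ha, hb, Fin.sum_univ_three, f01, f02, f11, f12, f21, f22]; ring
    simp only [this, h.cof_eq, dot, Fin.sum_univ_three]; ring
  have e2 : ∀ a b : Fin 3 → ℝ, dot a a * dot b b - dot a b * dot b a = dot (cr a b) (cr a b) :=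
    fun a b => by simp only [dot, cr, Fin.sum_univ_three, f01, f02, f11, f12, f21, f22]; ring
  have e3 : dot (cr u v) (cr u v) = dot n (cr u v) ^ 2 := by
    have h1 := h.nn
    simp only [dot, cr, Fin.sum_univ_three, f01, f02, f11, f12, f21, f22] at h1 hu hv ⊢
    linear_combination (-((u 1 * v 2 - u 2 * v 1) ^ 2 + (u 2 * v 0 - u 0 * v 2) ^ 2
      + (u 0 * v 1 - u 1 * v 0) ^ 2)) * h1
      + ((n 0 * u 0 + n 1 * u 1 + n 2 * u 2) * (v 0 ^ 2 + v 1 ^ 2 + v 2 ^ 2)
        - (n 0 * v 0 + n 1 * v 1 + n 2 * v 2) * (u 0 * v 0 + u 1 * v 1 + u 2 * v 2)) * hu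
      + ((n 0 * v 0 + n 1 * v 1 + n 2 * v 2) * (u 0 ^ 2 + u 1 ^ 2 + u 2 ^ 2)
        - (n 0 * u 0 + n 1 * u 1 + n 2 * u 2) * (u 0 * v 0 + u 1 * v 1 + u 2 * v 2)) * hv
  rw [e2, e2, e3, dot, G2, dot.eq_1 (Nv _ _)]
  simp only [e1, Fin.sum_univ_three]
  ring

theorem jac_sq2 (A : E2 →L[ℝ] E) : R241.AF.jac A ^ 2 =
    ⟪A (e2 0), A (e2 0)⟫_ℝ * ⟪A (e2 1), A (e2 1)⟫_ℝ
      - ⟪A (e2 0), A (e2 1)⟫_ℝ * ⟪A (e2 1), A (e2 0)⟫_ℝ := by
  rw [R241.AF.jac_sq_gram A (EuclideanSpace.basisFun (Fin 2) ℝ), Matrix.det_fin_two]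
  simp only [Matrix.of_apply, EuclideanSpace.basisFun_apply]

namespace Mv

variable {F G : Mv} {X : ST → E} {p : ST}

theorem Reg.jac_comp (h : F.Reg) (hX : F.Sm X) (hp : p ∈ F.M) {A : E2 →L[ℝ] E}
    (hA : ∀ v, ⟪F.n p, A v⟫_ℝ = 0) :
    R241.AF.jac (((F.td X p).comp (ContinuousLinearMap.inl ℝ E ℝ)).comp A) =
      F.sX X p * R241.AF.jac A := by
  refine (pow_left_inj₀ (R241.AF.jac_nonneg _)
    (mul_nonneg (sX_nonneg p) (R241.AF.jac_nonneg _)) two_ne_zero).1 ?_
  rw [mul_pow, jac_sq2, jac_sq2, sX_sq]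
  simp only [inner_eq_dot]
  exact gram_comb (h.fr hp X) ((inner_eq_dot _ _).symm.trans (hA _))
    ((inner_eq_dot _ _).symm.trans (hA _)) (fun c => h.td_X hX hp (hA _) c)
    fun c => h.td_X hX hp (hA _) c

/-- area formula on a piece of a chart (only injectivity is used) -/
theorem Reg.lint_piece (h : F.Reg) (hX : F.Sm X) {t : ℝ} (hi : InjOn (fun x => X (x, t)) (F.sl t))
    {Y : E2 × ℝ → E} {U : Set (E2 × ℝ)} {W : Set ST} {L : E →L[ℝ] E2} (hc : Ch F Y U W L)
    {D : Set E} (hD : MeasurableSet D) (hW : D ⊆ {x | (x, t) ∈ W}) (g : E → ℝ≥0∞) :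
    ∫⁻ y in (fun x => X (x, t)) '' (F.sl t ∩ D), g y ∂μHE[2] =
      ∫⁻ x in D, ENNReal.ofReal (F.sX X (x, t)) * g (X (x, t)) ∂F.mu t := by
  set s := {z | (z, t) ∈ U} ∩ (fun z => Y (z, t)) ⁻¹' D with hs
  have hY : ContinuousOn (fun z => Y (z, t)) {z | (z, t) ∈ U} := fun z hz =>
    (hc.hasXt t z hz).continuousWithinAt
  have hsm : MeasurableSet s := by
    have := (hY.domRestrict.measurable hD)
    rw [hs, ← Subtype.image_preimage_coe]
    exact (MeasurableEmbedding.subtype_coe (hc.oUt t).measurableSet).measurableSet_image.2 this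
  have him : (fun x => X (x, t)) '' (F.sl t ∩ D) = (fun z => X (Y (z, t), t)) '' s := by
    ext y
    constructor
    · rintro ⟨x, ⟨h1, h2⟩, rfl⟩
      have e := hc.right (x, t) h1 (hW h2)
      exact ⟨L x, ⟨hc.inU (x, t) h1 (hW h2), by rwa [mem_preimage, e]⟩, by simp only [e]⟩
    · rintro ⟨z, hz, rfl⟩
      exact ⟨Y (z, t), ⟨hc.mem _ hz.1, hz.2⟩, rfl⟩
  have hd : ∀ z ∈ s, HasFDerivWithinAt (fun z => X (Y (z, t), t))
      (((F.td X (Y (z, t), t)).comp (ContinuousLinearMap.inl ℝ E ℝ)).comp (Jz Y (z, t))) s z :=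
    fun z hz => by
      have := (HasFDerivAt.comp z (f := fun y : E2 => (y, t))
        (hc.hasF hz.1 (hX.diffW (hc.mem _ hz.1))) (hasFDerivAt_prodMk_left z t))
      exact this.hasFDerivWithinAt
  have hinj : InjOn (fun z => X (Y (z, t), t)) s := fun z hz w hw e =>
    hc.injXt t hz.1 hw.1 (hi (hc.mem _ hz.1) (hc.mem _ hw.1) e)
  have e1 := R241.AF.lintegral_image_eq hsm hd hinj g
  rw [finrank_euclideanSpace_fin] at e1
  have e2 := hc.lint t (D.indicator fun x => ENNReal.ofReal (F.sX X (x, t)) * g (X (x, t)))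
  rw [lintegral_indicator hD, Measure.restrict_restrict hD, inter_eq_left.2 hW] at e2
  rw [him, e1, e2, ← lintegral_indicator hsm, ← lintegral_indicator (hc.oUt t).measurableSet]
  refine lintegral_congr fun z => ?_
  by_cases h1 : (z, t) ∈ U
  · by_cases h2 : Y (z, t) ∈ D
    · rw [indicator_of_mem (show z ∈ s from ⟨h1, h2⟩),
        indicator_of_mem (show z ∈ {z : E2 | (z, t) ∈ U} from h1), indicator_of_mem h2,
        h.jac_comp hX (hc.mem _ h1) (hc.n_Jz h h1), Ch.jac_eq,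
        ENNReal.ofReal_mul (sX_nonneg _)]
      ring
    · rw [indicator_of_notMem (fun k : z ∈ s => h2 k.2),
        indicator_of_mem (show z ∈ {z : E2 | (z, t) ∈ U} from h1), indicator_of_notMem h2, mul_zero]
  · rw [indicator_of_notMem (fun k : z ∈ s => h1 k.1),
      indicator_of_notMem (show z ∉ {z : E2 | (z, t) ∈ U} from h1)]

theorem Reg.cont_sl {B : Type} [TopologicalSpace B] {f : ST → B} (hf : ContinuousOn f F.M) (t : ℝ) :
    ContinuousOn (fun x => f (x, t)) (F.sl t) :=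
  hf.comp (Continuous.prodMk_left t).continuousOn fun _ hx => hx

theorem Reg.memb (h : F.Reg) (hX : F.Sm X) {t : ℝ} (hi : InjOn (fun x => X (x, t)) (F.sl t)) :
    MeasurableEmbedding ((F.sl t).domRestrict fun x => X (x, t)) :=
  (Reg.cont_sl hX.continuousOn t).measurableEmbedding (meas_sl h t) hi

/-- AREA FORMULA for an injective smooth map of a slice -/
theorem Reg.lint_image (h : F.Reg) (hX : F.Sm X) {t : ℝ}
    (hi : InjOn (fun x => X (x, t)) (F.sl t)) (g : E → ℝ≥0∞) :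
    ∫⁻ y in (fun x => X (x, t)) '' F.sl t, g y ∂μHE[2] =
      ∫⁻ x, ENNReal.ofReal (F.sX X (x, t)) * g (X (x, t)) ∂F.mu t := by
  have hc : ∀ x : F.sl t, ∃ O : Set E, IsOpen O ∧ x.1 ∈ O ∧ ∃ Y U W L, Ch F Y U W L ∧
      O = {x | (x, t) ∈ W} := fun x => by
    obtain ⟨Y, U, W, L, h1, h2⟩ := exists_ch h (p := (x.1, t)) x.2
    exact ⟨_, h2.oWt t, h1, Y, U, W, L, h2, rfl⟩
  choose O o1 o2 o3 using hc
  obtain ⟨T, hT, hU⟩ := TopologicalSpace.isOpen_iUnion_countable O o1
  rcases T.eq_empty_or_nonempty with rfl | hne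
  · have : F.sl t = ∅ := eq_empty_of_forall_notMem fun x hx => by
      have : x ∈ ⋃ i, O i := mem_iUnion.2 ⟨⟨x, hx⟩, o2 _⟩
      simp [← hU] at this
    simp [this, mu]
  obtain ⟨e, he⟩ := hT.exists_eq_range hne
  have hcov : F.sl t ⊆ ⋃ i, disjointed (fun i : ℕ => O (e i)) i := fun x hx => by
    rw [iUnion_disjointed]
    have : x ∈ ⋃ i, O i := mem_iUnion.2 ⟨⟨x, hx⟩, o2 _⟩
    rwa [← hU, he, biUnion_range] at this
  set D := disjointed fun i : ℕ => O (e i) with hD
  have hDm : ∀ i, MeasurableSet (D i) := MeasurableSet.disjointed fun i => (o1 _).measurableSet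
  have hDd : Pairwise (Disjoint on D) := disjoint_disjointed _
  have him : (fun x => X (x, t)) '' F.sl t = ⋃ i, (fun x => X (x, t)) '' (F.sl t ∩ D i) := by
    rw [← image_iUnion, ← inter_iUnion, inter_eq_left.2 hcov]
  have hm : ∀ i, MeasurableSet ((fun x => X (x, t)) '' (F.sl t ∩ D i)) := fun i =>
    ((meas_sl h t).inter (hDm i)).image_of_continuousOn_injOn
      ((Reg.cont_sl hX.continuousOn t).mono inter_subset_left) (hi.mono inter_subset_left)
  have hd : Pairwise (Disjoint on fun i => (fun x => X (x, t)) '' (F.sl t ∩ D i)) :=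
    fun i j hij => disjoint_image_image fun a ha b hb e' =>
      disjoint_left.1 (hDd hij) ha.2 (hi ha.1 hb.1 e' ▸ hb.2)
  have e2 : F.mu t = (F.mu t).restrict (⋃ i, D i) := by
    rw [mu, Measure.restrict_restrict (MeasurableSet.iUnion hDm), inter_eq_right.2 hcov]
  rw [him, lintegral_iUnion hm hd, e2, lintegral_iUnion hDm hDd]
  refine tsum_congr fun i => ?_
  obtain ⟨Y, U, W, L, h1, h2⟩ := o3 (e i)
  exact h.lint_piece hX hi h1 (hDm i) (h2 ▸ disjointed_subset (fun i : ℕ => O (e i)) i) g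

namespace Par

variable (h : F.Par G X)
include h

theorem inj_sl (t : ℝ) : InjOn (fun x => X (x, t)) (F.sl t) := fun x hx y hy e =>
  congrArg Prod.fst (h.toEmb.inj (x₁ := (x, t)) (x₂ := (y, t)) hx hy (Prod.ext e rfl))

/-- AREA FORMULA, lower integrals of arbitrary functions -/
theorem lint (t : ℝ) (g : E → ℝ≥0∞) :
    ∫⁻ y, g y ∂G.mu t = ∫⁻ x, ENNReal.ofReal (F.sX X (x, t)) * g (X (x, t)) ∂F.mu t := by
  rw [mu.eq_1 G, h.sl_eq]
  exact h.reg.lint_image h.sm (h.inj_sl t) g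

theorem aem_s (t : ℝ) : AEMeasurable (fun x => (F.sX X (x, t)).toNNReal) (F.mu t) :=
  (continuous_real_toNNReal.comp_continuousOn
    (Reg.cont_sl (h.reg.sm_sX h.sm h.ne).continuousOn t)).aemeasurable (meas_sl h.reg t)

/-- the area measure of the image as a push forward from the slice -/
theorem mu_eq (t : ℝ) : G.mu t = Measure.map ((F.sl t).domRestrict fun x => X (x, t))
    (((F.mu t).withDensity fun x => (F.sX X (x, t)).toNNReal).comap Subtype.val) := by
  have hs := meas_sl h.reg t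
  ext A hA
  rw [← lintegral_indicator_one hA, ← lintegral_indicator_one hA, h.lint,
    (h.reg.memb h.sm (h.inj_sl t)).lintegral_map]
  simp only [Set.domRestrict_apply]
  rw [← (MeasurableEmbedding.subtype_coe hs).lintegral_map
      (f := fun x => A.indicator 1 (X (x, t))), map_comap_subtype_coe hs, restrict_withDensity hs,
    lintegral_withDensity_eq_lintegral_mul_non_measurable₀ _ _ (by simp), mu,
    Measure.restrict_restrict hs, inter_self]
  · rfl
  · exact (h.aem_s t).restrict.coe_nnreal_ennreal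

/-- AREA FORMULA, Bochner integrals of arbitrary functions -/
theorem int {B : Type} [NormedAddCommGroup B] [NormedSpace ℝ B] (t : ℝ) (g : E → B) :
    ∫ y, g y ∂G.mu t = ∫ x, F.sX X (x, t) • g (X (x, t)) ∂F.mu t := by
  have hs := meas_sl h.reg t
  rw [h.mu_eq, (h.reg.memb h.sm (h.inj_sl t)).integral_map]
  simp only [Set.domRestrict_apply]
  rw [← (MeasurableEmbedding.subtype_coe hs).integral_map (g := fun x => g (X (x, t))),
    map_comap_subtype_coe hs, restrict_withDensity hs,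
    integral_withDensity_eq_integral_smul₀ (h.aem_s t).restrict, mu,
    Measure.restrict_restrict hs, inter_self]
  simp only [NNReal.smul_def, Real.coe_toNNReal _ (sX_nonneg _)]


end Par

/-! ### static surfaces -/

theorem Static.td_eq (hS : F.Static) {B : Type} [NormedAddCommGroup B] [NormedSpace ℝ B]
    {f : ST → B} (hf : ∀ x t, f (x, t) = f (x, 0)) (x : E) (t : ℝ) :
    F.td f (x, t) = F.td f (x, 0) := by
  have e : (fun q : ST => f (q + (0, t))) = f := funext fun q => by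
    rw [show q + (0, t) = (q.1, q.2 + t) from Prod.ext (add_zero _) rfl, hf, ← hf q.1 q.2]
  have e2 : ((0, t) : ST) +ᵥ F.M = F.M := by
    ext q
    rw [mem_vadd_set_iff_neg_vadd_mem, vadd_eq_add,
      show -((0, t) : ST) + q = (q.1, -t + q.2) from Prod.ext (by simp) rfl, hS.mem,
      ← hS.mem q.1 q.2]
  have := fderivWithin_comp_add_right (𝕜 := ℝ) (f := f) (s := F.M) (x := ((x, 0) : ST)) (0, t)
  rw [e, e2] at this
  rw [td, td, this]
  simp

theorem Static.D_eq (hS : F.Static) {f : ST → ℝ} (hf : ∀ x t, f (x, t) = f (x, 0)) (a : Fin 3)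
    (x : E) (t : ℝ) : F.D a f (x, t) = F.D a f (x, 0) := by
  rw [D_apply, D_apply, hS.td_eq hf, PL, PL, hS.n_eq]

theorem Static.NX_eq (hS : F.Static) (hX : ∀ x t, X (x, t) = X (x, 0)) (x : E) (t : ℝ) :
    F.NX X (x, t) = F.NX X (x, 0) := by
  have e : F.JX X (x, t) = F.JX X (x, 0) := funext fun a => funext fun c =>
    hS.D_eq (fun x t => by rw [cp, cp, hX]) a x t
  simp only [NX, e, nu, hS.n_eq x t]

theorem Static.td_t (hS : F.Static) {B : Type} [NormedAddCommGroup B] [NormedSpace ℝ B]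
    {f : ST → B} (hs : F.Sm f) (hf : ∀ x t, f (x, t) = f (x, 0)) (hp : p ∈ F.M) :
    F.td f p (0, 1) = 0 := by
  have d1 : HasDerivAt (fun s : ℝ => ((p.1, s) : ST)) (0, 1) p.2 :=
    (hasDerivAt_const p.2 p.1).prodMk (hasDerivAt_id p.2)
  have d2 := (hs.hasF hp).comp_hasDerivAt p.2 d1
    (Eventually.of_forall fun s => (hS.mem _ _).2 ((hS.mem p.1 p.2).1 hp))
  have e : (f ∘ fun s : ℝ => ((p.1, s) : ST)) = fun _ => f (p.1, 0) := funext fun s => hf _ _
  rw [e] at d2
  exact d2.unique (hasDerivAt_const _ _)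

/-- the image of a static surface under a time independent embedding is static -/
theorem Emb.static (h : F.Emb X) (hS : F.Static) (hX : ∀ x t, X (x, t) = X (x, 0)) :
    (F.img X).Static := by
  have hm : ∀ x s t, (x, s) ∈ hat X '' F.M → (x, t) ∈ hat X '' F.M := by
    rintro x s t ⟨q, hq, e⟩
    exact ⟨(q.1, t), (hS.mem _ _).2 ((hS.mem q.1 q.2).1 hq),
      Prod.ext ((hX _ _).trans ((hX q.1 q.2).symm.trans (congrArg Prod.fst e))) rfl⟩
  refine ⟨fun x t => ⟨hm x t 0, hm x 0 t⟩, fun x t => ?_, fun y => ?_⟩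
  · by_cases h0 : (x, 0) ∈ hat X '' F.M
    · obtain ⟨⟨z, s⟩, hq, e⟩ := h0
      obtain rfl : s = 0 := congrArg Prod.snd e
      obtain rfl : X (z, 0) = x := congrArg Prod.fst e
      have e1 := h.par.n_eq (z, t) ((hS.mem _ _).2 hq)
      have e2 := h.par.n_eq (z, 0) hq
      simp only [hat, hX z t, sX, hS.NX_eq hX z t] at e1 e2
      rw [e1, e2]
    · simp only [img, if_neg h0, if_neg fun k => h0 (hm x t 0 k)]
  · by_cases h0 : y ∈ hat X '' F.M
    · obtain ⟨q, hq, rfl⟩ := h0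
      rw [h.par.V_eq q hq, hS.V_eq, zero_smul, hS.td_t h.sm hX hq, inner_zero_right]
    · simp only [img, if_neg h0]

/-- embedding criterion over a static surface -/
theorem Static.emb (hS : F.Static) (hX : ∀ x t, X (x, t) = X (x, 0))
    (he : ∀ x ∈ F.sl 0, ∀ U ∈ 𝓝 x, ∃ U' ∈ 𝓝 (X (x, 0)), ∀ y ∈ F.sl 0, X (y, 0) ∈ U' → y ∈ U) :
    ∀ p ∈ F.M, ∀ U ∈ 𝓝 p, ∃ U' ∈ 𝓝 (hat X p), ∀ q ∈ F.M, hat X q ∈ U' → q ∈ U := by
  rintro ⟨x, t⟩ hp U hU
  obtain ⟨U1, h1, U2, h2, h3⟩ := mem_nhds_prod_iff.1 hU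
  obtain ⟨U', h4, h5⟩ := he x ((hS.mem x t).1 hp) U1 h1
  refine ⟨U' ×ˢ U2, prod_mem_nhds (by rwa [← hX x t] at h4) h2, fun q hq h6 => h3 ⟨?_, h6.2⟩⟩
  exact h5 q.1 ((hS.mem q.1 q.2).1 hq) (by rw [← hX q.1 q.2]; exact h6.1)

end Mv

end Crest.Agent.N250

end
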